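import Mathlib
import Vale.Agent.P284Z.F.Cv

/-!
# P284Z, block F0: charts and transitions of `Cov`
-/

open scoped ContDiff Topology ENNReal
open Filter Set Metric MeasureTheory

noncomputable section

namespace Vale.Agent.P284Z

open Vale.Agent.P272.K

/-- the local form of the identity theorem -/
theorem ev_zero {W H : Type} [NormedAddCommGroup W] [NormedSpace ℂ W] [NormedAddCommGroup H]
    [NormedSpace ℂ H] {f : W → H} {z : W} (hf : AnalyticAt ℂ f z)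
    (h : ∃ᶠ w in 𝓝 z, ∀ᶠ w' in 𝓝 w, f w' = 0) : ∀ᶠ w in 𝓝 z, f w = 0 := by
  obtain ⟨r, hr, h2⟩ := (((UniformSpace.Completion.toComplL : H →L[ℂ] _).analyticAt _).comp
    hf).exists_ball_analyticOnNhd
  obtain ⟨w, w1, w2⟩ := (h.and_eventually (ball_mem_nhds z hr)).exists
  have := h2.eqOn_zero_of_preconnected_of_eventuallyEq_zero (convex_ball z r).isPreconnected w2
    (w1.mono fun _ hw => by simp [hw])
  filter_upwards [ball_mem_nhds z hr] with u hu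
  exact UniformSpace.Completion.coe_injective H (this hu)

variable {n : ℕ} {Γ E : Type} [Group Γ] [TopologicalSpace E] [MulAction Γ E]

namespace Cov
variable (C : Cov n Γ E) {k k' : ℝ} {γ γ' g : Γ} {a b : C.I} {z z' : Cm n} {y : E}

theorem isOpen_B (k : ℝ) (a : C.I) : IsOpen (C.B k a) := isOpen_ball
theorem convex_B (k : ℝ) (a : C.I) : Convex ℝ (C.B k a) := convex_ball _ _
theorem preconn_B (k : ℝ) (a : C.I) : IsPreconnected (C.B k a) := (C.convex_B k a).isPreconnected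
theorem B_mono (h : k ≤ k') (a : C.I) : C.B k a ⊆ C.B k' a :=
  ball_subset_ball (mul_le_mul_of_nonneg_right h (C.r_pos a).le)
theorem c_mem (hk : 0 < k) (a : C.I) : C.c a ∈ C.B k a := mem_ball_self (mul_pos hk (C.r_pos a))
/-- the closed polydisc -/
def cB (k : ℝ) (a : C.I) : Set (Cm n) := closedBall (C.c a) (k * C.r a)
theorem isCompact_cB (k : ℝ) (a : C.I) : IsCompact (C.cB k a) := isCompact_closedBall _ _
theorem B_sub_cB (k : ℝ) (a : C.I) : C.B k a ⊆ C.cB k a := ball_subset_closedBall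
theorem cB_sub_B (h : k < k') (a : C.I) : C.cB k a ⊆ C.B k' a :=
  closedBall_subset_ball (mul_lt_mul_of_pos_right h (C.r_pos a))
theorem closedBall_sub (hz : z ∈ C.cB k a) {t : ℝ} (ht : t < (k' - k) * C.r a) :
    closedBall z t ⊆ C.B k' a :=
  closedBall_subset_ball' (by have := mem_closedBall.1 hz; linarith)
/-- a common lower bound of the radii -/
theorem exists_r : ∃ r₀ > (0 : ℝ), ∀ a, r₀ ≤ C.r a := by
  have h : ∀ᶠ t in 𝓝[>] (0 : ℝ), ∀ a, t ≤ C.r a := eventually_all.2 fun a =>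
    mem_nhdsWithin_of_mem_nhds (ge_mem_nhds (C.r_pos a))
  obtain ⟨t, h1, h2⟩ := (h.and self_mem_nhdsWithin).exists
  exact ⟨t, h2, h1⟩

theorem smul_pt (g γ : Γ) (a : C.I) (z : Cm n) : g • C.pt γ a z = C.pt (g * γ) a z :=
  (mul_smul _ _ _).symm
theorem pt_eq (γ : Γ) (a : C.I) (z : Cm n) : C.pt γ a z = γ • C.pt 1 a z := by
  rw [smul_pt, mul_one]
theorem co_smul (g γ : Γ) (a : C.I) (y : E) : C.co (g * γ) a (g • y) = C.co γ a y := by
  simp [co, mul_smul]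

theorem mem_tgt : z ∈ (C.e a).target ↔ z ∈ C.B 4 a := by rw [C.tgt]; rfl

/-- the chart `a` of the sheet `γ` -/
def ch (γ : Γ) (a : C.I) : OpenPartialHomeomorph E (Cm n) where
  toFun := C.co γ a
  invFun := C.pt γ a
  source := {y | γ⁻¹ • y ∈ (C.e a).source}
  target := C.B 4 a
  map_source' _ h := C.mem_tgt.1 ((C.e a).map_source h)
  map_target' z h := by
    simpa [pt] using (C.e a).map_target (C.mem_tgt.2 h)
  left_inv' y h := by
    rw [pt, co, (C.e a).left_inv h, smul_inv_smul]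
  right_inv' z h := by
    rw [pt, co, inv_smul_smul, (C.e a).right_inv (C.mem_tgt.2 h)]
  open_source := (C.e a).open_source.preimage (C.cont γ⁻¹)
  open_target := C.isOpen_B 4 a
  continuousOn_toFun := (C.e a).continuousOn.comp (C.cont γ⁻¹).continuousOn fun _ h => h
  continuousOn_invFun := (C.cont γ).comp_continuousOn
    ((C.e a).continuousOn_symm.mono fun _ h => C.mem_tgt.2 h)

theorem co_pt (hz : z ∈ C.B 4 a) (γ : Γ) : C.co γ a (C.pt γ a z) = z := (C.ch γ a).right_inv hz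
theorem pt_co (hy : y ∈ (C.ch γ a).source) : C.pt γ a (C.co γ a y) = y := (C.ch γ a).left_inv hy
theorem co_mem (hy : y ∈ (C.ch γ a).source) : C.co γ a y ∈ C.B 4 a := (C.ch γ a).map_source hy
theorem pt_mem (hz : z ∈ C.B 4 a) (γ : Γ) : C.pt γ a z ∈ (C.ch γ a).source :=
  (C.ch γ a).map_target hz
theorem injOn_pt (γ : Γ) (a : C.I) : InjOn (C.pt γ a) (C.B 4 a) := (C.ch γ a).symm.injOn
theorem continuousOn_pt (γ : Γ) (a : C.I) : ContinuousOn (C.pt γ a) (C.B 4 a) :=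
  (C.ch γ a).continuousOn_symm
theorem continuousAt_pt (hz : z ∈ C.B 4 a) (γ : Γ) : ContinuousAt (C.pt γ a) z :=
  (C.ch γ a).continuousAt_symm hz
theorem continuousAt_co (hz : z ∈ C.B 4 a) (γ : Γ) : ContinuousAt (C.co γ a) (C.pt γ a z) :=
  (C.ch γ a).continuousAt (C.pt_mem hz γ)
theorem map_pt' (hz : z ∈ C.B 4 a) (γ : Γ) : map (C.pt γ a) (𝓝 z) = 𝓝 (C.pt γ a z) :=
  (C.ch γ a).symm.map_nhds_eq hz
theorem ev_pt (hz : z ∈ C.B 4 a) (γ : Γ) {Q : E → Prop} :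
    (∀ᶠ y in 𝓝 (C.pt γ a z), Q y) ↔ ∀ᶠ w in 𝓝 z, Q (C.pt γ a w) := by
  rw [← C.map_pt' hz γ, eventually_map]
theorem isOpen_image_pt (γ : Γ) {O : Set (Cm n)} (hO : IsOpen O) (h : O ⊆ C.B 4 a) :
    IsOpen (C.pt γ a '' O) := (C.ch γ a).symm.isOpen_image_of_subset_source hO h
theorem isCompact_image_pt (γ : Γ) {K : Set (Cm n)} (hK : IsCompact K) (h : K ⊆ C.B 4 a) :
    IsCompact (C.pt γ a '' K) := hK.image_of_continuousOn ((C.continuousOn_pt γ a).mono h)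
theorem isOpen_preimage_pt (γ : Γ) (a : C.I) {Ω : Set E} (hΩ : IsOpen Ω) :
    IsOpen {z | z ∈ C.B 4 a ∧ C.pt γ a z ∈ Ω} :=
  (C.continuousOn_pt γ a).isOpen_inter_preimage (C.isOpen_B 4 a) hΩ
theorem exists_pt (y : E) : ∃ γ a, ∃ z ∈ C.B 1 a, y = C.pt γ a z := by
  obtain ⟨γ, a, z, hz, h⟩ := C.cover y
  exact ⟨γ, a, z, by rwa [B, one_mul], h⟩
theorem B14 (hz : z ∈ C.B 1 a) : z ∈ C.B 4 a := C.B_mono (by norm_num) a hz
/-- the compact fundamental set -/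
def K₁ : Set E := ⋃ a, C.pt 1 a '' C.cB 1 a
theorem isCompact_K₁ : IsCompact C.K₁ := isCompact_iUnion fun a =>
  C.isCompact_image_pt 1 (C.isCompact_cB 1 a) (C.cB_sub_B (by norm_num) a)
theorem exists_smul_mem (y : E) : ∃ γ : Γ, γ • y ∈ C.K₁ := by
  obtain ⟨γ, a, z, hz, rfl⟩ := C.exists_pt y
  exact ⟨γ⁻¹, mem_iUnion.2 ⟨a, z, C.B_sub_cB 1 a hz, by rw [smul_pt, inv_mul_cancel]⟩⟩
/-- a compact set is covered by finitely many compact pieces of charts -/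
theorem cover_compact {K : Set E} (hK : IsCompact K) :
    ∃ S : Finset Γ, ∀ y ∈ K, ∃ γ ∈ S, ∃ a, ∃ z ∈ C.B 1 a, y = C.pt γ a z := by
  obtain ⟨S, hS⟩ := hK.elim_finite_subcover (fun γ : Γ => ⋃ a, C.pt γ a '' C.B 1 a)
    (fun γ => isOpen_iUnion fun a => C.isOpen_image_pt γ (C.isOpen_B 1 a) fun _ => C.B14)
    fun y _ => by
      obtain ⟨γ, a, z, hz, rfl⟩ := C.exists_pt y
      exact mem_iUnion.2 ⟨γ, mem_iUnion.2 ⟨a, z, hz, rfl⟩⟩
  refine ⟨S, fun y hy => ?_⟩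
  obtain ⟨γ, h1, h2⟩ := mem_iUnion₂.1 (hS hy)
  obtain ⟨a, z, hz, h⟩ := mem_iUnion.1 h2
  exact ⟨γ, h1, a, z, hz, h.symm⟩

/-- the charts as an atlas -/
@[reducible] def atl : ChartedSpace (Cm n) E where
  atlas := univ
  chartAt y := C.ch (C.exists_pt y).choose (C.exists_pt y).choose_spec.choose
  mem_chart_source y := by
    obtain ⟨z, hz, h⟩ := (C.exists_pt y).choose_spec.choose_spec
    have := C.pt_mem (C.B14 hz) (C.exists_pt y).choose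
    rwa [← h] at this
  chart_mem_atlas _ := mem_univ _

include C in
theorem locallyCompact : LocallyCompactSpace E :=
  letI := C.atl
  ChartedSpace.locallyCompactSpace (Cm n) E
include C in
theorem locPathConnected : LocPathConnectedSpace E :=
  letI := C.atl
  ChartedSpace.locallyPathConnectedSpace (Cm n) E

/-! ### transitions -/

theorem co_pt_eq (γ γ' : Γ) (a b : C.I) (z : Cm n) :
    C.co γ' b (C.pt γ a z) = C.tr (γ'⁻¹ * γ) a b z := by rw [co, smul_pt, tr]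
theorem pt_tr (h : C.Ov γ a b z) (g : Γ) : C.pt g b (C.tr γ a b z) = C.pt (g * γ) a z := by
  rw [pt, tr, (C.e b).left_inv h.2, smul_pt]
theorem tr_mem (h : C.Ov γ a b z) : C.tr γ a b z ∈ C.B 4 b := C.mem_tgt.1 ((C.e b).map_source h.2)
theorem Ov_of_eq (hz : z ∈ C.B 4 a) (hz' : z' ∈ C.B 4 b) (h : C.pt γ a z = C.pt γ' b z') :
    C.Ov (γ'⁻¹ * γ) a b z ∧ C.tr (γ'⁻¹ * γ) a b z = z' :=
  ⟨⟨hz, by rw [← smul_pt, h]; exact C.pt_mem hz' γ'⟩, by rw [← co_pt_eq, h, C.co_pt hz']⟩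
theorem Ov_symm (h : C.Ov γ a b z) : C.Ov γ⁻¹ b a (C.tr γ a b z) := by
  simpa using (C.Ov_of_eq (γ := 1) (γ' := γ) (C.tr_mem h) h.1 (by rw [C.pt_tr h, one_mul])).1
theorem tr_tr (h : C.Ov γ a b z) : C.tr γ⁻¹ b a (C.tr γ a b z) = z := by
  simpa using (C.Ov_of_eq (γ := 1) (γ' := γ) (C.tr_mem h) h.1 (by rw [C.pt_tr h, one_mul])).2
theorem Ov_self (hz : z ∈ C.B 4 a) : C.Ov 1 a a z := by
  simpa using (C.Ov_of_eq (γ := 1) hz hz rfl).1
theorem tr_self (hz : z ∈ C.B 4 a) : C.tr 1 a a z = z := by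
  simpa using (C.Ov_of_eq (γ := 1) hz hz rfl).2
theorem isOpen_Ov (γ : Γ) (a b : C.I) : IsOpen {z | C.Ov γ a b z} :=
  C.isOpen_preimage_pt γ a (C.e b).open_source
theorem ev_Ov (h : C.Ov γ a b z) : ∀ᶠ w in 𝓝 z, C.Ov γ a b w := (C.isOpen_Ov γ a b).mem_nhds h
theorem an_tr (h : C.Ov γ a b z) : AnalyticAt ℂ (C.tr γ a b) z := C.hol γ a b z h.1 h.2
theorem map_tr (h : C.Ov γ a b z) : map (C.tr γ a b) (𝓝 z) = 𝓝 (C.tr γ a b z) := by
  rw [show C.tr γ a b = C.e b ∘ C.pt γ a from rfl, ← map_map, C.map_pt' h.1,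
    (C.e b).map_nhds_eq h.2]
  rfl
theorem fderiv_tr_inv (h : C.Ov γ a b z) (v : Cm n) :
    fderiv ℂ (C.tr γ⁻¹ b a) (C.tr γ a b z) (fderiv ℂ (C.tr γ a b) z v) = v := by
  have h1 : C.tr γ⁻¹ b a ∘ C.tr γ a b =ᶠ[𝓝 z] id := (C.ev_Ov h).mono fun _ hw => C.tr_tr hw
  have h2 := h1.fderiv_eq (𝕜 := ℂ)
  rw [fderiv_comp z (C.an_tr (C.Ov_symm h)).differentiableAt (C.an_tr h).differentiableAt,
    fderiv_id] at h2
  exact congrArg (fun A : Cm n →L[ℂ] Cm n => A v) h2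
theorem fderiv_tr_inv' (h : C.Ov γ a b z) (v : Cm n) :
    fderiv ℂ (C.tr γ a b) z (fderiv ℂ (C.tr γ⁻¹ b a) (C.tr γ a b z) v) = v := by
  have := C.fderiv_tr_inv (C.Ov_symm h) v
  rwa [inv_inv, C.tr_tr h] at this
theorem tr_lip₀ (h : C.Ov γ a b z) : ∃ K > (0 : ℝ), ∀ᶠ q : Cm n × Cm n in 𝓝 (z, z),
    ‖C.tr γ a b q.1 - C.tr γ a b q.2‖ ≤ K * ‖q.1 - q.2‖ := by
  obtain ⟨K, t, ht, hK⟩ := ((C.an_tr h).contDiffAt (n := 1)).exists_lipschitzOnWith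
  refine ⟨K + 1, by positivity, ?_⟩
  filter_upwards [prod_mem_nhds ht ht] with q hq
  exact (hK.norm_sub_le hq.1 hq.2).trans (by nlinarith [norm_nonneg (q.1 - q.2)])
theorem tr_lip (h : C.Ov γ a b z) : ∃ K > (0 : ℝ), ∀ᶠ q : Cm n × Cm n in 𝓝 (z, z),
    ‖C.tr γ a b q.1 - C.tr γ a b q.2‖ ≤ K * ‖q.1 - q.2‖ ∧
      ‖q.1 - q.2‖ ≤ K * ‖C.tr γ a b q.1 - C.tr γ a b q.2‖ := by
  obtain ⟨K, hK, h1⟩ := C.tr_lip₀ h
  obtain ⟨K', hK', h2⟩ := C.tr_lip₀ (C.Ov_symm h)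
  have hc := (C.an_tr h).continuousAt
  refine ⟨K + K', by positivity, ?_⟩
  filter_upwards [h1, (hc.prodMap' hc).eventually h2, prod_mem_nhds (C.ev_Ov h) (C.ev_Ov h)]
    with q q1 q2 q3
  simp only [Prod.map_fst, Prod.map_snd, C.tr_tr q3.1, C.tr_tr q3.2] at q2
  constructor <;> nlinarith [norm_nonneg (q.1 - q.2), norm_nonneg (C.tr γ a b q.1 - C.tr γ a b q.2)]
theorem ae_tr (γ : Γ) (a b : C.I) {Q : Cm n → Prop} (h : ∀ᵐ z, z ∈ C.B 4 b → Q z) :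
    ∀ᵐ z, C.Ov γ a b z → Q (C.tr γ a b z) := by
  have h1 := addHaar_image_eq_zero_of_differentiableOn_of_addHaar_eq_zero volume
    (f := C.tr γ⁻¹ b a) (s := {w | C.Ov γ⁻¹ b a w ∧ ¬ Q w})
    (fun w hw => ((C.an_tr hw.1).differentiableAt.restrictScalars ℝ).differentiableWithinAt)
    (measure_mono_null (t := {w | ¬ (w ∈ C.B 4 b → Q w)}) (fun w hw h' => hw.2 (h' hw.1.1))
      (ae_iff.1 h))
  refine measure_mono_null (fun w hw => ?_) h1
  obtain ⟨h2, h3⟩ := Classical.not_imp.1 hw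
  exact ⟨_, ⟨C.Ov_symm h2, h3⟩, C.tr_tr h2⟩
theorem ae_of_B1 [Countable Γ] {Q : E → Prop}
    (h : ∀ γ a, ∀ᵐ z, z ∈ C.B 1 a → Q (C.pt γ a z)) (γ : Γ) (a : C.I) :
    ∀ᵐ z, z ∈ C.B 4 a → Q (C.pt γ a z) := by
  have h1 : ∀ᵐ z, ∀ q : Γ × C.I, C.Ov (q.1⁻¹ * γ) a q.2 z →
      C.tr (q.1⁻¹ * γ) a q.2 z ∈ C.B 1 q.2 → Q (C.pt q.1 q.2 (C.tr (q.1⁻¹ * γ) a q.2 z)) :=
    ae_all_iff.2 fun q => C.ae_tr _ a q.2 (Q := fun w => w ∈ C.B 1 q.2 → Q (C.pt q.1 q.2 w))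
      ((h q.1 q.2).mono fun _ hw _ => hw)
  filter_upwards [h1] with z hz h2
  obtain ⟨g, b, w, hw, e⟩ := C.exists_pt (C.pt γ a z)
  obtain ⟨h3, h4⟩ := C.Ov_of_eq h2 (C.B14 hw) e
  have := hz (g, b) h3
  rw [h4] at this
  exact e ▸ this hw
/-- a property which holds almost everywhere holds on a dense set -/
theorem dense_of_ae {Q : E → Prop} (h : ∀ γ a, ∀ᵐ z, z ∈ C.B 1 a → Q (C.pt γ a z)) :
    Dense {y | Q y} := fun y => by
  obtain ⟨γ, a, z, hz, rfl⟩ := C.exists_pt y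
  rw [mem_closure_iff_frequently, ← C.map_pt' (C.B14 hz), frequently_map]
  have h1 := mem_closure_iff_frequently.1 ((Measure.dense_of_ae (h γ a)) z)
  exact (h1.and_eventually ((C.isOpen_B 1 a).mem_nhds hz)).mono fun _ hw => hw.1 hw.2

section hol
variable {H : Type} [NormedAddCommGroup H] [NormedSpace ℂ H] {F : E → H} {Ω Ω₀ : Set E}

theorem an_of_chart (hz : z ∈ C.B 4 a) (hz' : z' ∈ C.B 4 b) (h : C.pt γ a z = C.pt γ' b z')
    (hF : AnalyticAt ℂ (fun w => F (C.pt γ' b w)) z') :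
    AnalyticAt ℂ (fun w => F (C.pt γ a w)) z := by
  obtain ⟨h1, h2⟩ := C.Ov_of_eq hz hz' h
  refine (hF.comp_of_eq (C.an_tr h1) h2).congr ((C.ev_Ov h1).mono fun w hw => ?_)
  simp only [Function.comp, C.pt_tr hw, mul_inv_cancel_left]
theorem holOn_of_chart (h : ∀ y ∈ Ω, ∃ γ a, ∃ z ∈ C.B 4 a, y = C.pt γ a z ∧
    AnalyticAt ℂ (fun w => F (C.pt γ a w)) z) : C.HolOn F Ω := fun γ a z hz hΩ => by
  obtain ⟨g, b, w, hw, e, h1⟩ := h _ hΩ
  exact C.an_of_chart hz hw e h1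
theorem holOn_co (γ : Γ) (a : C.I) : C.HolOn (C.co γ a) (C.ch γ a).source :=
  C.holOn_of_chart fun _ hy => ⟨γ, a, _, C.co_mem hy, (C.pt_co hy).symm, analyticAt_id.congr
    (Eventually.mono ((C.isOpen_B 4 a).mem_nhds (C.co_mem hy)) fun _ hw => (C.co_pt hw γ).symm)⟩
theorem HolOn.continuousAt (h : C.HolOn F Ω) (hy : y ∈ Ω) : ContinuousAt F y := by
  obtain ⟨γ, a, z, hz, rfl⟩ := C.exists_pt y
  rw [ContinuousAt, ← C.map_pt' (C.B14 hz), tendsto_map'_iff]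
  exact (h γ a z (C.B14 hz) hy).continuousAt
theorem HolOn.smul (h : C.HolOn F Ω) (g : Γ) : C.HolOn (fun y => F (g • y)) {y | g • y ∈ Ω} :=
  fun γ a z hz hΩ => by
    simp only [smul_pt, mem_ofPred_eq] at hΩ ⊢
    exact h _ a z hz hΩ
/-- the identity theorem -/
theorem HolOn.eq_zero (h : C.HolOn F Ω) (hc : IsPreconnected Ω) (hy : y ∈ Ω)
    (h0 : ∀ᶠ y' in 𝓝 y, F y' = 0) : ∀ y' ∈ Ω, F y' = 0 := by
  have h1 : Ω ⊆ {y | ∀ᶠ y' in 𝓝 y, F y' = 0} := by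
    refine hc.subset_of_closure_inter_subset isOpen_setOfPred_eventually_nhds ⟨y, hy, h0⟩ ?_
    rintro x ⟨x1, x2⟩
    obtain ⟨γ, a, z, hz, rfl⟩ := C.exists_pt x
    have hz := C.B14 hz
    rw [mem_closure_iff_frequently, ← C.map_pt' hz, frequently_map] at x1
    exact (C.ev_pt hz γ).2 (ev_zero (h γ a z hz x2) ((x1.and_eventually
      ((C.isOpen_B 4 a).mem_nhds hz)).mono fun w hw => (C.ev_pt hw.2 γ).1 hw.1))
  exact fun y' hy' => (h1 hy').self_of_nhds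

end hol

end Cov

end Vale.Agent.P284Z
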